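import Vale.Agent.P235.K5.H12.Int

/-!
# P235, line GX, row [G4] (helper473 #18449): inserting marks

Before every bag `B t` one inserts the small bag `Adh B t ∪ M t`, `M t ⊆ B t`.
-/

set_option linter.all false

namespace Vale.Agent.P235.K5.GX.H838

open SimpleGraph Vale.Agent.P235.K5

variable {V : Type}

/-- the root clique of the bag `t` with its marks -/
def KM (B M : ℕ → Set V) (t : ℕ) : Set V := Adh B t ∪ M t

/-- the bags with the marks: `BM (2 t) = Adh B t ∪ M t`, `BM (2 t + 1) = B t` -/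
def BM (B M : ℕ → Set V) (s : ℕ) : Set V := if s % 2 = 0 then KM B M (s / 2) else B (s / 2)

/-- the graph with the cliques on `Adh B t ∪ M t` -/
def HM (H : SimpleGraph V) (n : ℕ) (B M : ℕ → Set V) : SimpleGraph V where
  Adj u v := H.Adj u v ∨ (u ≠ v ∧ ∃ t < n, u ∈ KM B M t ∧ v ∈ KM B M t)
  symm := ⟨fun u v h => by
    rcases h with h | ⟨h1, t, h2, h3, h4⟩
    · exact Or.inl h.symm
    · exact Or.inr ⟨h1.symm, t, h2, h4, h3⟩⟩
  loopless := ⟨fun u h => by
    rcases h with h | ⟨h1, _⟩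
    · exact H.loopless.irrefl u h
    · exact h1 rfl⟩

theorem le_HM (H : SimpleGraph V) (n : ℕ) (B M : ℕ → Set V) : H ≤ HM H n B M :=
  fun _ _ h => Or.inl h

theorem BM_even (B M : ℕ → Set V) (t : ℕ) : BM B M (2 * t) = KM B M t := by
  unfold BM
  rw [if_pos (by omega)]
  congr 1
  omega

theorem BM_odd (B M : ℕ → Set V) (t : ℕ) : BM B M (2 * t + 1) = B t := by
  unfold BM
  rw [if_neg (by omega)]
  congr 1
  omega

theorem KM_sub {B M : ℕ → Set V} {t : ℕ} (hM : M t ⊆ B t) : KM B M t ⊆ B t := by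
  rintro v (hv | hv)
  · exact hv.1
  · exact hM hv

theorem bef_even {B M : ℕ → Set V} {t : ℕ} (hM : ∀ s < t, M s ⊆ B s) :
    Bef (BM B M) (2 * t) = Bef B t := by
  ext v
  constructor
  · rintro ⟨s, hs, hv⟩
    have h1 : s / 2 < t := by omega
    refine ⟨s / 2, h1, ?_⟩
    unfold BM at hv
    split_ifs at hv
    · exact KM_sub (hM _ h1) hv
    · exact hv
  · rintro ⟨s, hs, hv⟩
    exact ⟨2 * s + 1, by omega, by rw [BM_odd]; exact hv⟩

theorem bef_odd {B M : ℕ → Set V} {t : ℕ} (hM : ∀ s < t, M s ⊆ B s) :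
    Bef (BM B M) (2 * t + 1) = Bef B t ∪ M t := by
  ext v
  constructor
  · rintro ⟨s, hs, hv⟩
    by_cases h1 : s = 2 * t
    · rw [h1, BM_even] at hv
      rcases hv with hv | hv
      · exact Or.inl hv.2
      · exact Or.inr hv
    · left
      rw [← bef_even hM]
      exact ⟨s, by omega, hv⟩
  · rintro (hv | hv)
    · rw [← bef_even hM] at hv
      obtain ⟨s, hs, h1⟩ := hv
      exact ⟨s, by omega, h1⟩
    · exact ⟨2 * t, by omega, by rw [BM_even]; exact Or.inr hv⟩

theorem adh_even {B M : ℕ → Set V} {t : ℕ} (hM : ∀ s ≤ t, M s ⊆ B s) :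
    Adh (BM B M) (2 * t) = Adh B t := by
  ext v
  constructor
  · rintro ⟨h1, h2⟩
    rw [BM_even] at h1
    rw [bef_even fun s hs => hM s hs.le] at h2
    exact ⟨KM_sub (hM t le_rfl) h1, h2⟩
  · intro h
    refine ⟨?_, ?_⟩
    · rw [BM_even]; exact Or.inl h
    · rw [bef_even fun s hs => hM s hs.le]; exact h.2

theorem adh_odd {B M : ℕ → Set V} {t : ℕ} (hM : ∀ s ≤ t, M s ⊆ B s) :
    Adh (BM B M) (2 * t + 1) = KM B M t := by
  ext v
  constructor
  · rintro ⟨h1, h2⟩
    rw [BM_odd] at h1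
    rw [bef_odd fun s hs => hM s hs.le] at h2
    rcases h2 with h2 | h2
    · exact Or.inl ⟨h1, h2⟩
    · exact Or.inr h2
  · intro h
    refine ⟨?_, ?_⟩
    · rw [BM_odd]; exact KM_sub (hM t le_rfl) h
    · rw [bef_odd fun s hs => hM s hs.le]
      rcases h with h | h
      · exact Or.inl h.2
      · exact Or.inr h

section

variable {k k' n : ℕ} {H : SimpleGraph V} {B M : ℕ → Set V}

/-- inside a bag in which `M` is contained in the adhesion nothing new appears -/
theorem adj_of_bag (h : Glued k H n B) (hM : ∀ t < n, M t ⊆ B t) {t : ℕ} (ht : t < n) {u v : V}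
    (hu : u ∈ B t) (hv : v ∈ B t) (ha : (HM H n B M).Adj u v) :
    H.Adj u v ∨ (u ∈ KM B M t ∧ v ∈ KM B M t) := by
  rcases ha with ha | ⟨hne, t', ht', hu', hv'⟩
  · exact Or.inl ha
  · rcases lt_trichotomy t t' with h1 | h1 | h1
    · left
      exact h.clique t' ht' u ⟨KM_sub (hM t' ht') hu', t, h1, hu⟩ v
        ⟨KM_sub (hM t' ht') hv', t, h1, hv⟩ hne
    · right
      rw [h1]
      exact ⟨hu', hv'⟩
    · left
      exact h.clique t ht u ⟨hu, t', h1, KM_sub (hM t' ht') hu'⟩ v
        ⟨hv, t', h1, KM_sub (hM t' ht') hv'⟩ hne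

/-- in a bag without marks outside the adhesion the graph does not change -/
theorem induce_eq (h : Glued k H n B) (hM : ∀ t < n, M t ⊆ B t) {t : ℕ} (ht : t < n)
    (h0 : M t ⊆ Adh B t) : (HM H n B M).induce (B t) = H.induce (B t) := by
  ext ⟨u, hu⟩ ⟨v, hv⟩
  simp only [SimpleGraph.comap_adj, Function.Embedding.subtype_apply]
  constructor
  · intro ha
    have hne : u ≠ v := by
      rintro rfl
      exact (HM H n B M).loopless.irrefl u ha
    rcases adj_of_bag h hM ht hu hv ha with h1 | ⟨h1, h2⟩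
    · exact h1
    · exact h.clique t ht u (h1.elim id fun h => h0 h) v (h2.elim id fun h => h0 h) hne
  · exact fun ha => le_HM H n B M ha

/-- **[G4]** -/
theorem glued_marks (h : Glued k H n B) (hM : ∀ t < n, M t ⊆ B t) (hkk : k ≤ k')
    (hK : ∀ t < n, (KM B M t).ncard ≤ k') : Glued k' (HM H n B M) (2 * n) (BM B M) where
  cover v := by
    obtain ⟨t, ht, hv⟩ := h.cover v
    exact ⟨2 * t + 1, by omega, by rw [BM_odd]; exact hv⟩
  card s hs := by
    have ht : s / 2 < n := by omega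
    have hM' : ∀ r ≤ s / 2, M r ⊆ B r := fun r hr => hM r (by omega)
    rcases Nat.even_or_odd' s with ⟨t, rfl | rfl⟩
    · have e : 2 * t / 2 = t := by omega
      rw [e] at ht hM'
      rw [adh_even hM']
      exact (h.card t ht).trans hkk
    · have e : (2 * t + 1) / 2 = t := by omega
      rw [e] at ht hM'
      rw [adh_odd hM']
      exact hK t ht
  clique s hs := by
    have ht : s / 2 < n := by omega
    have hM' : ∀ r ≤ s / 2, M r ⊆ B r := fun r hr => hM r (by omega)
    rcases Nat.even_or_odd' s with ⟨t, rfl | rfl⟩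
    · have e : 2 * t / 2 = t := by omega
      rw [e] at ht hM'
      rw [adh_even hM']
      exact fun u hu v hv hne => Or.inl (h.clique t ht u hu v hv hne)
    · have e : (2 * t + 1) / 2 = t := by omega
      rw [e] at ht hM'
      rw [adh_odd hM']
      exact fun u hu v hv hne => Or.inr ⟨hne, t, ht, hu, hv⟩
  sep s hs := by
    have ht : s / 2 < n := by omega
    have hM' : ∀ r ≤ s / 2, M r ⊆ B r := fun r hr => hM r (by omega)
    -- the common part
    have key : ∀ t < n, ∀ u v, u ∈ B t → u ∉ Bef B t → v ∈ Bef B t → v ∉ B t →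
        ¬ (HM H n B M).Adj u v := by
      intro t ht u v hu hu' hv hv' ha
      rcases ha with ha | ⟨hne, t', ht', h1, h2⟩
      · exact h.sep t ht u v hu hu' hv hv' ha
      · have hub : u ∈ B t' := KM_sub (hM t' ht') h1
        have hvb : v ∈ B t' := KM_sub (hM t' ht') h2
        rcases lt_trichotomy t t' with h3 | h3 | h3
        · obtain ⟨r, hr, h4⟩ := hv
          exact h.sep t ht u v hu hu' ⟨r, hr, h4⟩ hv'
            (h.clique t' ht' u ⟨hub, t, h3, hu⟩ v ⟨hvb, r, by omega, h4⟩ hne)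
        · rw [← h3] at hvb
          exact hv' hvb
        · exact hu' ⟨t', h3, hub⟩
    rcases Nat.even_or_odd' s with ⟨t, rfl | rfl⟩
    · have e : 2 * t / 2 = t := by omega
      rw [e] at ht hM'
      intro u v hu hu' hv hv'
      rw [BM_even] at hu hv'
      rw [bef_even fun r hr => hM' r hr.le] at hu' hv
      refine key t ht u v (KM_sub (hM t ht) hu) hu' hv ?_
      intro h1
      exact hv' (Or.inl ⟨h1, hv⟩)
    · have e : (2 * t + 1) / 2 = t := by omega
      rw [e] at ht hM'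
      intro u v hu hu' hv hv'
      rw [BM_odd] at hu hv'
      rw [bef_odd fun r hr => hM' r hr.le] at hu' hv
      refine key t ht u v hu (fun h1 => hu' (Or.inl h1)) ?_ hv'
      rcases hv with hv | hv
      · exact hv
      · exact absurd (hM t ht hv) hv'

/-- **[G4]**, one statement: marks `M t ⊆ B t`, at most `k'` vertices in `Adh B t ∪ M t`. -/
theorem insert_marks (h : Glued k H n B) (hM : ∀ t < n, M t ⊆ B t) (hkk : k ≤ k')
    (hK : ∀ t < n, (Adh B t ∪ M t).ncard ≤ k') :
    ∃ (H' : SimpleGraph V) (B' : ℕ → Set V), H ≤ H' ∧ Glued k' H' (2 * n) B' ∧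
      (∀ t, B' (2 * t) = Adh B t ∪ M t) ∧ (∀ t, B' (2 * t + 1) = B t) ∧
      (∀ t < n, Adh B' (2 * t) = Adh B t) ∧ (∀ t < n, Adh B' (2 * t + 1) = Adh B t ∪ M t) ∧
      (∀ t < n, Bef B' (2 * t) = Bef B t) ∧ (∀ t < n, Bef B' (2 * t + 1) = Bef B t ∪ M t) ∧
      (∀ t < n, ∀ u ∈ Adh B t ∪ M t, ∀ v ∈ Adh B t ∪ M t, u ≠ v → H'.Adj u v) ∧
      (∀ t < n, M t ⊆ Adh B t → H'.induce (B t) = H.induce (B t)) :=
  ⟨HM H n B M, BM B M, le_HM H n B M, glued_marks h hM hkk hK, BM_even B M, BM_odd B M,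
    fun t ht => adh_even fun s hs => hM s (by omega),
    fun t ht => adh_odd fun s hs => hM s (by omega),
    fun t ht => bef_even fun s hs => hM s (by omega),
    fun t ht => bef_odd fun s hs => hM s (by omega),
    fun t ht u hu v hv hne => Or.inr ⟨hne, t, ht, hu, hv⟩,
    fun t ht h0 => induce_eq h hM ht h0⟩

end

end Vale.Agent.P235.K5.GX.H838
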